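import Vale.Agent.P259.Bdl.B1
import Vale.Agent.P259.H615.DefsQ

/-!
Fibrations and trivial fibrations of `∞`-groupoids, in terms of the coglobular object of discs.
-/

open CategoryTheory Limits

namespace Vale.Agent.P259.H304

open Vale.Agent.P259.H615 StmtB Theta0

section

universe v u

variable {𝓜 : Type u} [Category.{v} 𝓜]

lemma fib_iff_exists (F : Globe ⥤ 𝓜) {X Y : 𝓜} (f : X ⟶ Y) :
    Fib F 0 f ↔ ∀ n (u : cob F n ⟶ X) (w : cob F (n + 1) ⟶ Y), sg F n ≫ w = u ≫ f →
      ∃ v, sg F n ≫ v = u ∧ v ≫ f = w := by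
  constructor
  · intro h n u w hw
    have h1 : HasLiftingProperty (sg F n) f := h _ (MorphismProperty.ofHoms.mk
      (f := fun k : {k : ℕ // 0 ≤ k} => sg F k.1) ⟨n, Nat.zero_le n⟩)
    have sq : CommSq u (sg F n) f w := ⟨hw.symm⟩
    exact ⟨sq.lift, sq.fac_left, sq.fac_right⟩
  · intro h A B i hi
    obtain ⟨k⟩ := hi
    apply hasLift_of_exists
    intro u w hw
    exact h k.1 u w hw.symm

variable [HasPushouts 𝓜] [HasInitial 𝓜]

lemma bd_comp_eq_iff_face (F : Globe ⥤ 𝓜) {X : 𝓜} (n : ℕ) (u v : cob F n ⟶ X) :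
    bd F n ≫ u = bd F n ≫ v ↔ ∀ ι {j} (lt : j < n), F.map (Globe.face ι lt) ≫ u =
      F.map (Globe.face ι lt) ≫ v := by
  cases n with
  | zero =>
    exact ⟨fun _ _ _ h => absurd h (Nat.not_lt_zero _), fun _ => sph_zero_hom_ext _ _ _⟩
  | succ n =>
    rw [bd_comp_eq_iff]
    constructor
    · rintro ⟨h1, h2⟩ ι j lt
      rcases Nat.lt_or_ge j n with h | h
      · rw [← Globe.face_comp_face ι false h n.lt_succ_self, F.map_comp, Category.assoc,
          Category.assoc]
        exact congrArg (fun z => F.map (Globe.face ι h) ≫ z) h1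
      · obtain rfl : j = n := le_antisymm (Nat.le_of_lt_succ lt) h
        cases ι with
        | false => exact h1
        | true => exact h2
    · intro h
      exact ⟨h false n.lt_succ_self, h true n.lt_succ_self⟩

lemma trivFib_iff_exists (F : Globe ⥤ 𝓜) {X Y : 𝓜} (f : X ⟶ Y) :
    TrivFib F f ↔ (∀ w : cob F 0 ⟶ Y, ∃ v, v ≫ f = w) ∧
      ∀ n (u : Bool → (cob F n ⟶ X)) (w : cob F (n + 1) ⟶ Y),
        (∀ ι {j} (lt : j < n), F.map (Globe.face ι lt) ≫ u false =
          F.map (Globe.face ι lt) ≫ u true) →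
        (∀ ι, F.map (Globe.face ι n.lt_succ_self) ≫ w = u ι ≫ f) →
          ∃ v, (∀ ι, F.map (Globe.face ι n.lt_succ_self) ≫ v = u ι) ∧ v ≫ f = w := by
  constructor
  · intro h
    have h1 : ∀ n, HasLiftingProperty (bd F n) f := fun n => h _ (MorphismProperty.ofHoms.mk
      (f := fun k : ℕ => bd F k) n)
    refine ⟨fun w => ?_, fun n u w hu hw => ?_⟩
    · have := h1 0
      have sq : CommSq ((isInitialSphZero F).to X) (bd F 0) f w :=
        ⟨(isInitialSphZero F).hom_ext _ _⟩
      exact ⟨sq.lift, sq.fac_right⟩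
    · have := h1 (n + 1)
      have hb := (bd_comp_eq_iff_face F n (u false) (u true)).2 (fun ι {j} lt => hu ι lt)
      have sq : CommSq (sphDesc F (u false) (u true) hb) (bd F (n + 1)) f w := ⟨by
        apply sph_hom_ext
        · rw [hemS_sphDesc_assoc, hemS_bd_assoc]
          exact (hw false).symm
        · rw [hemT_sphDesc_assoc, hemT_bd_assoc]
          exact (hw true).symm⟩
      have h2 := sq.fac_left
      refine ⟨sq.lift, fun ι => ?_, sq.fac_right⟩
      cases ι with
      | false =>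
        have h3 := congrArg (fun z => hemS F n ≫ z) h2
        simp only [hemS_bd_assoc, hemS_sphDesc] at h3
        exact h3
      | true =>
        have h3 := congrArg (fun z => hemT F n ≫ z) h2
        simp only [hemT_bd_assoc, hemT_sphDesc] at h3
        exact h3
  · rintro ⟨h0, h⟩ A B i hi
    obtain ⟨n⟩ := hi
    apply hasLift_of_exists
    intro β w hw
    cases n with
    | zero =>
      obtain ⟨v, hv⟩ := h0 w
      exact ⟨v, sph_zero_hom_ext _ _ _, hv⟩
    | succ n =>
      obtain ⟨v, hv, hv'⟩ := h n (fun ι => Bool.casesOn ι (hemS F n ≫ β) (hemT F n ≫ β)) w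
        (fun ι {j} lt => by
          refine (bd_comp_eq_iff_face F n (hemS F n ≫ β) (hemT F n ≫ β)).1 ?_ ι lt
          rw [← Category.assoc, ← Category.assoc, (isPushout_sph F n).w])
        (fun ι => by
          cases ι with
          | false =>
            change sg F n ≫ w = (hemS F n ≫ β) ≫ f
            rw [Category.assoc, hw, hemS_bd_assoc]
          | true =>
            change tg F n ≫ w = (hemT F n ≫ β) ≫ f
            rw [Category.assoc, hw, hemT_bd_assoc])
      refine ⟨v, sph_hom_ext F ?_ ?_, hv'⟩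
      · rw [hemS_bd_assoc]
        exact hv false
      · rw [hemT_bd_assoc]
        exact hv true

end

section

variable {Q : Type} [SmallCategory Q] (J : Glob Q)

/-- The comparison of the category of `∞`-groupoids with that of the development. -/
noncomputable abbrev EJ : Gpd J ⥤ (Ext.to ⟨Q, J⟩).GE.Gpd := (Ext.to ⟨Q, J⟩).E

/-- The coglobular object of discs. -/
noncomputable abbrev FJ : Globe ⥤ (Ext.to ⟨Q, J⟩).GE.Gpd := (Ext.to ⟨Q, J⟩).GE.F ⊤

instance : (EJ J).IsEquivalence := inferInstanceAs (Ext.to ⟨Q, J⟩).E.IsEquivalence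

/-- The cells of an `∞`-groupoid. -/
noncomputable def cellJ (X : Gpd J) (n : ℕ) :
    (yoneda.obj (J.o (disc n)) ⟶ X.obj) ≃ (cob (FJ J) n ⟶ (EJ J).obj X) :=
  S.cellE (A := Ext.to ⟨Q, J⟩) X n

lemma cellJ_face (X : Gpd J) (ι : Bool) {j n : ℕ} (lt : j < n)
    (u : yoneda.obj (J.o (disc n)) ⟶ X.obj) :
    cellJ J X j (yoneda.map (J.s (.face ι lt)) ≫ u) =
      (FJ J).map (Globe.face ι lt) ≫ cellJ J X n u := by
  refine (S.cellE_left (A := Ext.to ⟨Q, J⟩) X (J.s (.face ι lt)) u).trans ?_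
  have h1 : (show (.of (disc j) : (Ext.to ⟨Q, J⟩).GE.Obj) ⟶ .of (disc n) from
      J.s (.face ι lt)) = (Ext.to ⟨Q, J⟩).GE.J.map (face ι lt) :=
    ((Ext.to ⟨Q, J⟩).incl_face ι lt).symm
  rw [h1]
  rfl

lemma cellJ_comp {X Y : Gpd J} (f : X ⟶ Y) {n : ℕ} (u : yoneda.obj (J.o (disc n)) ⟶ X.obj) :
    cellJ J Y n (u ≫ f.hom) = cellJ J X n u ≫ (EJ J).map f :=
  S.cellE_right (A := Ext.to ⟨Q, J⟩) f u

/-- Fibrations of `∞`-groupoids. -/
theorem gfib_iff {X Y : Gpd J} (f : X ⟶ Y) : gfib J f ↔ Fib (FJ J) 0 ((EJ J).map f) := by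
  rw [fib_iff_exists]
  constructor
  · intro h n u w hw
    obtain ⟨u, rfl⟩ := (cellJ J X n).surjective u
    obtain ⟨w, rfl⟩ := (cellJ J Y (n + 1)).surjective w
    obtain ⟨v, hv, hv'⟩ := h n u w (by
      apply (cellJ J Y n).injective
      rw [cellJ_face, cellJ_comp]
      exact hw)
    refine ⟨cellJ J X (n + 1) v, ?_, ?_⟩
    · rw [← hv, cellJ_face]
    · rw [← cellJ_comp, hv']
  · intro h n u w hw
    obtain ⟨v, hv, hv'⟩ := h n (cellJ J X n u) (cellJ J Y (n + 1) w) (by
      rw [← cellJ_comp, ← hw, cellJ_face])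
    obtain ⟨v, rfl⟩ := (cellJ J X (n + 1)).surjective v
    refine ⟨v, ?_, ?_⟩
    · apply (cellJ J X n).injective
      rw [cellJ_face]
      exact hv
    · apply (cellJ J Y (n + 1)).injective
      rw [cellJ_comp]
      exact hv'

/-- Trivial fibrations of `∞`-groupoids. -/
theorem gtriv_iff {X Y : Gpd J} (f : X ⟶ Y) : gtriv J f ↔ TrivFib (FJ J) ((EJ J).map f) := by
  rw [trivFib_iff_exists]
  constructor
  · rintro ⟨h0, h⟩
    refine ⟨fun w => ?_, fun n u w hu hw => ?_⟩
    · obtain ⟨w, rfl⟩ := (cellJ J Y 0).surjective w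
      obtain ⟨v, hv⟩ := h0 w
      exact ⟨cellJ J X 0 v, by rw [← cellJ_comp, hv]⟩
    · obtain ⟨w, rfl⟩ := (cellJ J Y (n + 1)).surjective w
      obtain ⟨v, hv, hv'⟩ := h n (fun ι => (cellJ J X n).symm (u ι)) w
        (fun ι {j} lt => by
          apply (cellJ J X j).injective
          rw [cellJ_face, cellJ_face, Equiv.apply_symm_apply, Equiv.apply_symm_apply]
          exact hu ι lt)
        (fun ι => by
          apply (cellJ J Y n).injective
          rw [cellJ_face, cellJ_comp, Equiv.apply_symm_apply]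
          exact hw ι)
      refine ⟨cellJ J X (n + 1) v, fun ι => ?_, ?_⟩
      · have h1 := congrArg (cellJ J X n) (hv ι)
        rw [cellJ_face, Equiv.apply_symm_apply] at h1
        exact h1
      · rw [← cellJ_comp, hv']
  · rintro ⟨h0, h⟩
    refine ⟨fun w => ?_, fun n u w hu hw => ?_⟩
    · obtain ⟨v, hv⟩ := h0 (cellJ J Y 0 w)
      obtain ⟨v, rfl⟩ := (cellJ J X 0).surjective v
      refine ⟨v, (cellJ J Y 0).injective ?_⟩
      rw [cellJ_comp]
      exact hv
    · obtain ⟨v, hv, hv'⟩ := h n (fun ι => cellJ J X n (u ι)) (cellJ J Y (n + 1) w)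
        (fun ι {j} lt => by
          rw [← cellJ_face, ← cellJ_face, hu ι lt])
        (fun ι => by
          rw [← cellJ_face, ← cellJ_comp, hw ι])
      obtain ⟨v, rfl⟩ := (cellJ J X (n + 1)).surjective v
      refine ⟨v, fun ι => ?_, ?_⟩
      · apply (cellJ J X n).injective
        rw [cellJ_face]
        exact hv ι
      · apply (cellJ J Y (n + 1)).injective
        rw [cellJ_comp]
        exact hv'

end

end Vale.Agent.P259.H304
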