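import Vale.Agent.P259.Bdl.B1
import Vale.Agent.P259.H615.Defs

/-!
Homotopy equivalences of relative categories, and the equivalences of homotopy theories they
induce.
-/

open CategoryTheory

namespace Vale.Agent.P259.H304

open Vale.Agent.P259.H615

/-- `R` is a homotopy equivalence of relative categories: it preserves and reflects the weak
equivalences and it has an inverse up to natural zigzags of weak equivalences. -/
def Zig {K L : Type 1} [Category.{0} K] [Category.{0} L] (R : K ⥤ L) (W : MorphismProperty K)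
    (V : MorphismProperty L) : Prop :=
  V.inverseImage R = W ∧ ∃ (G : L ⥤ K) (Q : L ⥤ L) (q : Q ⟶ 𝟭 L) (r : Q ⟶ G ⋙ R)
    (e : R ⋙ G ⟶ 𝟭 K), V ≤ W.inverseImage G ∧ (∀ X, V (q.app X)) ∧ (∀ X, V (r.app X)) ∧
      ∀ Y, W (e.app Y)

section

variable {K L : Type 1} [Category.{0} K] [Category.{0} L] {R : K ⥤ L}
  {W : MorphismProperty K} {V : MorphismProperty L}

/-- A homotopy equivalence of relative categories is an equivalence of homotopy theories. -/
theorem Zig.hoEq (h : Zig R W V) : HoEq R W V := by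
  obtain ⟨h1, G, Q, q, r, e, hG, hq, hr, he⟩ := h
  refine ⟨h1, fun D _ => ?_⟩
  have hP : W.functorCategory D ≤
      (V.functorCategory D).inverseImage ((Functor.whiskeringRight D K L).obj R) := by
    intro X Y f hf d
    have h2 : W (f.app d) := hf d
    rw [← h1] at h2
    exact h2
  have hL : V.functorCategory D ≤
      (W.functorCategory D).inverseImage ((Functor.whiskeringRight D L K).obj G) := by
    intro X Y f hf d
    exact hG _ (hf d)
  let q' : (Functor.whiskeringRight D L L).obj Q ⟶ 𝟭 (D ⥤ L) :=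
    { app := fun X =>
        { app := fun d => q.app (X.obj d)
          naturality := fun _ _ f => q.naturality (X.map f) }
      naturality := fun X Y f => by
        ext d
        exact q.naturality (f.app d) }
  let r' : (Functor.whiskeringRight D L L).obj Q ⟶
      (Functor.whiskeringRight D L K).obj G ⋙ (Functor.whiskeringRight D K L).obj R :=
    { app := fun X =>
        { app := fun d => r.app (X.obj d)
          naturality := fun _ _ f => r.naturality (X.map f) }
      naturality := fun X Y f => by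
        ext d
        exact r.naturality (f.app d) }
  let e' : (Functor.whiskeringRight D K L).obj R ⋙ (Functor.whiskeringRight D L K).obj G ⟶
      𝟭 (D ⥤ K) :=
    { app := fun X =>
        { app := fun d => e.app (X.obj d)
          naturality := fun _ _ f => e.naturality (X.map f) }
      naturality := fun X Y f => by
        ext d
        exact e.naturality (f.app d) }
  have h3 := isLocalizedEquivalence_of_zigzag (W.functorCategory D) (V.functorCategory D)
    ((Functor.whiskeringRight D K L).obj R) hP ((Functor.whiskeringRight D L K).obj G) hL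
    ((Functor.whiskeringRight D L L).obj Q) q' (fun X d => hq (X.obj d)) r'
    (fun X d => hr (X.obj d)) e' (fun X d => he (X.obj d))
  exact LocalizerMorphism.IsLocalizedEquivalence.isLocalization
    (LocalizerMorphism.mk ((Functor.whiskeringRight D K L).obj R) hP) (V.functorCategory D).Q

/-- Restriction to full subcategories which correspond to one another and are stable under weak
equivalences. -/
theorem Zig.restrict (h : Zig R W V) (P : ObjectProperty K) (P' : ObjectProperty L)
    (hP : ∀ Y, P' (R.obj Y) ↔ P Y) (hP' : ∀ {X Y} (f : X ⟶ Y), V f → (P' X ↔ P' Y))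
    (hl : ∀ Y : P.FullSubcategory, P' ((P.ι ⋙ R).obj Y)) :
    Zig (P'.lift (P.ι ⋙ R) hl) (W.inverseImage P.ι) (V.inverseImage P'.ι) := by
  obtain ⟨h1, G, Q, q, r, e, hG, hq, hr, he⟩ := h
  have hQ : ∀ X : P'.FullSubcategory, P' ((P'.ι ⋙ Q).obj X) := fun X =>
    (hP' (q.app X.obj) (hq _)).2 X.property
  have hG' : ∀ X : P'.FullSubcategory, P ((P'.ι ⋙ G).obj X) := fun X =>
    (hP _).1 ((hP' (r.app X.obj) (hr _)).1 (hQ X))
  refine ⟨?_, P.lift (P'.ι ⋙ G) hG', P'.lift (P'.ι ⋙ Q) hQ,
    { app := fun X => ObjectProperty.homMk (q.app X.obj)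
      naturality := fun X Y f => by
        apply P'.ι.map_injective
        exact q.naturality f.hom },
    { app := fun X => ObjectProperty.homMk (r.app X.obj)
      naturality := fun X Y f => by
        apply P'.ι.map_injective
        exact r.naturality f.hom },
    { app := fun X => ObjectProperty.homMk (e.app X.obj)
      naturality := fun X Y f => by
        apply P.ι.map_injective
        exact e.naturality f.hom }, ?_, fun X => hq _, fun X => hr _, fun X => he _⟩
  · ext X Y f
    change V (R.map f.hom) ↔ W f.hom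
    rw [← h1]
    rfl
  · intro X Y f hf
    exact hG _ hf

/-- Composition with an equivalence of categories. -/
theorem Zig.comp_equiv (h : Zig R W V) {M : Type 1} [Category.{0} M] (E : L ⥤ M)
    [E.IsEquivalence] (U : MorphismProperty M) [U.RespectsIso] [W.RespectsIso]
    (hU : U.inverseImage E = V) {R' : K ⥤ M} (i : R ⋙ E ≅ R') : Zig R' W U := by
  obtain ⟨h1, G, Q, q, r, e, hG, hq, hr, he⟩ := h
  obtain ⟨c, cn, ci⟩ : ∃ c : ∀ X : M, E.obj (E.inv.obj X) ⟶ X,
      (∀ {X Y : M} (f : X ⟶ Y), E.map (E.inv.map f) ≫ c Y = c X ≫ f) ∧ ∀ X, IsIso (c X) :=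
    ⟨fun X => E.asEquivalence.counitIso.hom.app X,
      fun f => E.asEquivalence.counitIso.hom.naturality f,
      fun X => Iso.isIso_hom (E.asEquivalence.counitIso.app X)⟩
  obtain ⟨u, un, ui⟩ : ∃ u : ∀ X : L, E.inv.obj (E.obj X) ⟶ X,
      (∀ {X Y : L} (f : X ⟶ Y), E.inv.map (E.map f) ≫ u Y = u X ≫ f) ∧ ∀ X, IsIso (u X) :=
    ⟨fun X => E.asEquivalence.unitIso.inv.app X,
      fun f => E.asEquivalence.unitIso.inv.naturality f,
      fun X => Iso.isIso_inv (E.asEquivalence.unitIso.app X)⟩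
  obtain ⟨a, an, ai⟩ : ∃ a : ∀ Y : K, E.obj (R.obj Y) ⟶ R'.obj Y,
      (∀ {X Y : K} (f : X ⟶ Y), E.map (R.map f) ≫ a Y = a X ≫ R'.map f) ∧ ∀ X, IsIso (a X) :=
    ⟨fun X => i.hom.app X, fun f => i.hom.naturality f, fun X => inferInstance⟩
  obtain ⟨b, bn, bi⟩ : ∃ b : ∀ Y : K, R'.obj Y ⟶ E.obj (R.obj Y),
      (∀ {X Y : K} (f : X ⟶ Y), R'.map f ≫ b Y = b X ≫ E.map (R.map f)) ∧ ∀ X, IsIso (b X) :=
    ⟨fun X => i.inv.app X, fun f => i.inv.naturality f, fun X => inferInstance⟩
  have qn : ∀ {X Y : L} (f : X ⟶ Y), Q.map f ≫ q.app Y = q.app X ≫ f := fun f => q.naturality f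
  have rn : ∀ {X Y : L} (f : X ⟶ Y), Q.map f ≫ r.app Y = r.app X ≫ R.map (G.map f) :=
    fun f => r.naturality f
  have en : ∀ {X Y : K} (f : X ⟶ Y), G.map (R.map f) ≫ e.app Y = e.app X ≫ f :=
    fun f => e.naturality f
  have hU' : ∀ {X Y : L} (f : X ⟶ Y), U (E.map f) ↔ V f := by
    intro X Y f
    rw [← hU]
    rfl
  have hinv : ∀ {X Y : M} (f : X ⟶ Y), U f ↔ V (E.inv.map f) := by
    intro X Y f
    rw [← hU', ← U.cancel_right_of_respectsIso (E.map (E.inv.map f)) (c Y), cn,
      U.cancel_left_of_respectsIso]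
  refine ⟨?_, E.inv ⋙ G, E.inv ⋙ Q ⋙ E,
    { app := fun X => (E.map (q.app (E.inv.obj X)) : E.obj (Q.obj (E.inv.obj X)) ⟶
        E.obj (E.inv.obj X)) ≫ c X
      naturality := fun X Y f => ?_ },
    { app := fun X => (E.map (r.app (E.inv.obj X)) : E.obj (Q.obj (E.inv.obj X)) ⟶
        E.obj (R.obj (G.obj (E.inv.obj X)))) ≫ a (G.obj (E.inv.obj X))
      naturality := fun X Y f => ?_ },
    { app := fun X => G.map (E.inv.map (b X) ≫ u (R.obj X)) ≫ (e.app X : G.obj (R.obj X) ⟶ X)
      naturality := fun X Y f => ?_ }, ?_, fun X => ?_, fun X => ?_, fun X => ?_⟩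
  · rw [← h1]
    ext X Y f
    change U (R'.map f) ↔ V (R.map f)
    rw [← hU', ← U.cancel_right_of_respectsIso (E.map (R.map f)) (a Y), an,
      U.cancel_left_of_respectsIso]
  · change E.map (Q.map (E.inv.map f)) ≫ (E.map (q.app (E.inv.obj Y)) : _ ⟶
        E.obj (E.inv.obj Y)) ≫ c Y =
      ((E.map (q.app (E.inv.obj X)) : _ ⟶ E.obj (E.inv.obj X)) ≫ c X) ≫ f
    have h5 := congrArg (fun t => E.map t) (qn (E.inv.map f))
    simp only [Functor.map_comp] at h5
    rw [← Category.assoc, Category.assoc _ _ f, ← cn, ← Category.assoc]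
    exact congrArg (fun t => t ≫ c Y) h5
  · change E.map (Q.map (E.inv.map f)) ≫ (E.map (r.app (E.inv.obj Y)) : _ ⟶
        E.obj (R.obj (G.obj (E.inv.obj Y)))) ≫ a _ =
      ((E.map (r.app (E.inv.obj X)) : _ ⟶ E.obj (R.obj (G.obj (E.inv.obj X)))) ≫ a _) ≫
        R'.map (G.map (E.inv.map f))
    have h5 := congrArg (fun t => E.map t) (rn (E.inv.map f))
    simp only [Functor.map_comp] at h5
    rw [← Category.assoc, Category.assoc _ _ (R'.map (G.map (E.inv.map f))), ← an,
      ← Category.assoc]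
    exact congrArg (fun t => t ≫ a _) h5
  · change G.map (E.inv.map (R'.map f)) ≫ G.map (E.inv.map (b Y) ≫ u (R.obj Y)) ≫
        (e.app Y : G.obj (R.obj Y) ⟶ Y) =
      (G.map (E.inv.map (b X) ≫ u (R.obj X)) ≫ (e.app X : G.obj (R.obj X) ⟶ X)) ≫ f
    have h5 : E.inv.map (R'.map f) ≫ E.inv.map (b Y) ≫ u (R.obj Y) =
        (E.inv.map (b X) ≫ u (R.obj X)) ≫ R.map f := by
      rw [← Category.assoc, ← E.inv.map_comp, bn, E.inv.map_comp, Category.assoc, un,
        Category.assoc]
    have h6 := congrArg (fun t => G.map t) h5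
    simp only [G.map_comp (E.inv.map (R'.map f)), G.map_comp _ (R.map f)] at h6
    rw [← Category.assoc, h6, Category.assoc, Category.assoc]
    exact congrArg (fun t => G.map (E.inv.map (b X) ≫ u (R.obj X)) ≫ t) (en f)
  · intro X Y f hf
    exact hG _ ((hinv f).1 hf)
  · exact (U.cancel_right_of_respectsIso _ (c X)).2 ((hU' _).2 (hq _))
  · exact (U.cancel_right_of_respectsIso _ (a _)).2 ((hU' _).2 (hr _))
  · exact (W.cancel_left_of_respectsIso (G.map (E.inv.map (b X) ≫ u (R.obj X))) _).2 (he _)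

/-- Two out of three. -/
theorem HoEq.of_comp {M : Type 1} [Category.{0} M] {U : MorphismProperty M} {R₁ : K ⥤ L}
    {R₂ : L ⥤ M} (h₁ : HoEq R₁ W V) (h₂ : HoEq (R₁ ⋙ R₂) W U) (hU : U.inverseImage R₂ = V) :
    HoEq R₂ V U := by
  refine ⟨hU, fun D _ => ?_⟩
  have i1 := h₁.2 D
  have i2 := h₂.2 D
  have h3 : V.functorCategory D ≤
      (U.functorCategory D).inverseImage ((Functor.whiskeringRight D L M).obj R₂) := by
    intro X Y f hf d
    have h4 : V (f.app d) := hf d
    rw [← hU] at h4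
    exact h4
  let Φ : LocalizerMorphism (V.functorCategory D) (U.functorCategory D) :=
    LocalizerMorphism.mk ((Functor.whiskeringRight D L M).obj R₂) h3
  have j : ((Functor.whiskeringRight D K L).obj R₁ ⋙ (V.functorCategory D).Q) ⋙
      Φ.localizedFunctor (V.functorCategory D).Q (U.functorCategory D).Q ≅
      (Functor.whiskeringRight D K M).obj (R₁ ⋙ R₂) ⋙ (U.functorCategory D).Q :=
    Functor.associator _ _ _ ≪≫ Functor.isoWhiskerLeft ((Functor.whiskeringRight D K L).obj R₁)
      (Φ.catCommSq (V.functorCategory D).Q (U.functorCategory D).Q).iso.symm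
  have i3 : (Φ.localizedFunctor (V.functorCategory D).Q (U.functorCategory D).Q).IsEquivalence :=
    Functor.isEquivalence_of_iso (Localization.isoUniqFunctor
      ((Functor.whiskeringRight D K L).obj R₁ ⋙ (V.functorCategory D).Q)
      ((Functor.whiskeringRight D K M).obj (R₁ ⋙ R₂) ⋙ (U.functorCategory D).Q)
      (W.functorCategory D) _ j).symm
  have i4 : Φ.IsLocalizedEquivalence := ⟨i3⟩
  exact LocalizerMorphism.IsLocalizedEquivalence.isLocalization Φ (U.functorCategory D).Q

end

open Theta0 GlobExt CompactlyGenerated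

variable {C : GlobExt}

/-- The fundamental `∞`-groupoid functor of a coherator and a disc functor is a homotopy
equivalence of relative categories. -/
theorem zig_PiCG (hC : C.IsCoherator) (I : C.Ident) (Δ : DiscFunctor C) :
    Zig Δ.PiCG wheCG (weq I) := by
  obtain ⟨Q, q, hq, hQ⟩ := C.exists_cofRep ⊤
  have hu : ∀ X, weq I (Δ.adj.unit.app (Q.obj X)) := fun X => Δ.weq_unit hC I (hQ X).some
  have hq' : ∀ X, weq I (q.app X) := fun X => weq_of_trivFib hC I (hq X)
  have h : ∀ {Y Z : CompactlyGenerated.{0, 0}} (f : Y ⟶ Z), weq I (Δ.PiCG.map f) ↔ wheCG f :=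
    fun f => weq_Pi hC I Δ _
  -- the counit
  let e : Δ.PiCG ⋙ Q ⋙ Δ.realCG ⟶ 𝟭 CompactlyGenerated.{0, 0} :=
    { app := fun Y => homCG (X := (Δ.PiCG ⋙ Q ⋙ Δ.realCG).obj Y) (Y := Y)
        (Δ.real.map (q.app (Δ.Pi.obj Y.toTop)) ≫ Δ.adj.counit.app Y.toTop)
      naturality := fun Y Z f => by
        apply fullyFaithfulCompactlyGeneratedToTop.map_injective
        exact Δ.counit_nat q (compactlyGeneratedToTop.map f) }
  refine ⟨?_, Q ⋙ Δ.realCG, Q, q,
    { app := fun X => Δ.adj.unit.app (Q.obj X)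
      naturality := fun X Y f => Δ.adj.unit.naturality (Q.map f) }, e, ?_, hq', hu, ?_⟩
  · ext Y Z f
    exact h f
  · intro X Y f hf
    change IsWHE (Δ.real.map (Q.map f)).hom
    rw [← weq_Pi hC I Δ]
    have hQf : weq I (Q.map f) := by
      obtain ⟨K0⟩ := exists_cylFun_zero hC
      have h1 := weq_comp hC I (hq' X) hf
      have h2 : Q.map f ≫ q.app Y = q.app X ≫ f := q.naturality f
      have h3 := hq' Y
      rw [← h2] at h1
      rw [weq_iff hC K0] at h1 h3 ⊢
      exact PathCtx.W.of_comp' h3 h1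
    refine weq_of_comp hC I (hu X) ?_
    have h4 : Δ.adj.unit.app (Q.obj X) ≫ Δ.Pi.map (Δ.real.map (Q.map f)) =
        Q.map f ≫ Δ.adj.unit.app (Q.obj Y) := (Δ.adj.unit.naturality (Q.map f)).symm
    rw [h4]
    exact weq_comp hC I hQf (hu Y)
  · intro Y
    change IsWHE (Δ.real.map (q.app (Δ.Pi.obj Y.toTop)) ≫ Δ.adj.counit.app Y.toTop).hom
    rw [← weq_Pi hC I Δ]
    refine weq_of_comp hC I (hu (Δ.Pi.obj Y.toTop)) ?_
    have h5 : Δ.adj.unit.app (Q.obj (Δ.Pi.obj Y.toTop)) ≫
        Δ.Pi.map (Δ.real.map (q.app (Δ.Pi.obj Y.toTop)) ≫ Δ.adj.counit.app Y.toTop) =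
        q.app (Δ.Pi.obj Y.toTop) := by
      rw [Functor.map_comp, ← Category.assoc]
      have h6 : Δ.adj.unit.app (Q.obj (Δ.Pi.obj Y.toTop)) ≫
          Δ.Pi.map (Δ.real.map (q.app (Δ.Pi.obj Y.toTop))) =
          q.app (Δ.Pi.obj Y.toTop) ≫ Δ.adj.unit.app (Δ.Pi.obj Y.toTop) :=
        (Δ.adj.unit.naturality (q.app (Δ.Pi.obj Y.toTop))).symm
      rw [h6, Category.assoc, Δ.adj.right_triangle_components]
      exact Category.comp_id _
    rw [h5]
    exact hq' _

end Vale.Agent.P259.H304
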