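import Vale.Agent.P259.H304.Semi
import Vale.Agent.P259.H615.Inv

/-!
The left adjoint of the fundamental `∞`-groupoid functor; the derived adjunction is an equivalence.
-/

open CategoryTheory Limits

namespace Vale.Agent.P259.H304

open Vale.Agent.P259.H615 StmtB Theta0 GlobExt CompactlyGenerated

/-- Cofibrant objects are transported by an equivalence of categories. -/
lemma cofib_map {K L : Type 1} [Category.{0} K] [Category.{0} L] (E : K ⥤ L) [E.IsEquivalence]
    (P : MorphismProperty L) [P.RespectsIso] {A : K} (hA : cofib (P.inverseImage E) A) :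
    cofib P (E.obj A) := by
  intro X Y p hp f
  obtain ⟨X', Y', g, ⟨e⟩⟩ := exists_arrow_iso E p
  have h1 : P (E.map g) := (P.arrow_mk_iso_iff e).2 hp
  obtain ⟨f', hf'⟩ := E.map_surjective (f ≫ e.inv.right)
  obtain ⟨l, hl⟩ := hA g h1 f'
  refine ⟨E.map l ≫ e.hom.left, ?_⟩
  have h2 : e.hom.left ≫ p = E.map g ≫ e.hom.right := e.hom.w
  have h3 : e.inv.right ≫ e.hom.right = 𝟙 Y := by
    rw [← Arrow.comp_right, e.inv_hom_id]
    rfl
  rw [Category.assoc, h2, ← Category.assoc, ← E.map_comp, hl, hf', Category.assoc, h3]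
  exact Category.comp_id f

lemma isCof_of_cofib {𝓜 : Type 1} [Category.{0} 𝓜] [HasLimits 𝓜] [HasColimits 𝓜] (K : PathCtx 𝓜)
    {A : 𝓜} (hA : cofib (TrivFib K.F) A) : K.IsCof A := by
  intro X Y p hp
  apply hasLift_of_exists
  intro u w _
  obtain ⟨g, hg⟩ := hA p hp w
  exact ⟨g, initial.hom_ext _ _, hg⟩

section

variable {C : GlobExt}

/-- The adjunction between realization and the fundamental `∞`-groupoid, for compactly generated
spaces. -/
noncomputable def adjCG (Δ : DiscFunctor C) : Δ.realCG ⊣ Δ.PiCG :=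
  Adjunction.mkOfHomEquiv
    { homEquiv := fun X Y =>
        (fullyFaithfulCompactlyGeneratedToTop.homEquiv (X := Δ.realCG.obj X) (Y := Y)).trans
          (Δ.adj.homEquiv X Y.toTop)
      homEquiv_naturality_left_symm := fun {X' X Y} f g => by
        apply fullyFaithfulCompactlyGeneratedToTop.map_injective
        exact Δ.adj.homEquiv_naturality_left_symm f g
      homEquiv_naturality_right := fun {X Y Y'} f g =>
        Δ.adj.homEquiv_naturality_right (compactlyGeneratedToTop.map f)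
          (compactlyGeneratedToTop.map g) }

lemma adjCG_homEquiv (Δ : DiscFunctor C) (X : C.Gpd) (Y : CompactlyGenerated.{0, 0})
    (f : Δ.realCG.obj X ⟶ Y) : (adjCG Δ).homEquiv X Y f =
      Δ.adj.unit.app X ≫ Δ.PiCG.map f := by
  have h : (adjCG Δ).homEquiv X Y f = Δ.adj.homEquiv X Y.toTop (compactlyGeneratedToTop.map f) := by
    unfold adjCG
    rw [Adjunction.mkOfHomEquiv_homEquiv]
    rfl
  rw [h]
  exact Δ.adj.homEquiv_unit _ _ _

/-- The unit at a cofibrant object is a weak equivalence. -/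
theorem W_unit_of_isCof (hC : C.IsCoherator) (K0 : C.CylFun ⊤ 0) (Δ : DiscFunctor C) {X : C.Gpd}
    (hX : (K0.pathCtx hC).IsCof X) : (K0.pathCtx hC).W (Δ.adj.unit.app X) := by
  obtain ⟨Q, q, hq, hQ⟩ := C.exists_cofRep ⊤
  obtain ⟨I⟩ := exists_ident hC
  have h1 : (K0.pathCtx hC).W (Δ.adj.unit.app (Q.obj X)) :=
    (weq_iff hC K0 I _).1 (Δ.weq_unit hC I (hQ X).some)
  obtain ⟨s, hs⟩ := PathCtx.cof_obj_lift hX (hq X) (𝟙 X)
  have e1 : s ≫ Δ.adj.unit.app (Q.obj X) = Δ.adj.unit.app X ≫ Δ.Pi.map (Δ.real.map s) :=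
    Δ.adj.unit.naturality s
  have e2 : q.app X ≫ Δ.adj.unit.app X = Δ.adj.unit.app (Q.obj X) ≫
    Δ.Pi.map (Δ.real.map (q.app X)) := Δ.adj.unit.naturality (q.app X)
  refine MorphismProperty.of_retract (P := (K0.pathCtx hC).W)
    (f := Δ.adj.unit.app X) (g := Δ.adj.unit.app (Q.obj X))
    { i := Arrow.homMk s (Δ.Pi.map (Δ.real.map s)) e1
      r := Arrow.homMk (q.app X) (Δ.Pi.map (Δ.real.map (q.app X))) e2
      retract := ?_ } h1
  refine Arrow.hom_ext _ _ hs ?_
  · change Δ.Pi.map (Δ.real.map s) ≫ Δ.Pi.map (Δ.real.map (q.app X)) = _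
    rw [← Δ.Pi.map_comp, ← Δ.real.map_comp, hs, Δ.real.map_id]
    exact Δ.Pi.map_id _

/-- The derived adjunction is an equivalence: a map from the realization of a cofibrant object is a
weak equivalence iff the adjoint map is. -/
theorem W_homEquiv_iff (hC : C.IsCoherator) (K0 : C.CylFun ⊤ 0) (Δ : DiscFunctor C) {X : C.Gpd}
    (hX : (K0.pathCtx hC).IsCof X) (Y : CompactlyGenerated.{0, 0}) (f : Δ.realCG.obj X ⟶ Y) :
    (K0.pathCtx hC).W ((adjCG Δ).homEquiv X Y f) ↔ wheCG f := by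
  obtain ⟨I⟩ := exists_ident hC
  have h1 : weq I (Δ.PiCG.map f) ↔ wheCG f := weq_Pi hC I Δ _
  rw [adjCG_homEquiv, ← h1, weq_iff hC K0]
  have h2 := W_unit_of_isCof hC K0 Δ hX
  exact ⟨fun h => PathCtx.W.of_comp h2 h, fun h => PathCtx.W.comp h2 h⟩

end

section

variable {Q : Type} [SmallCategory Q]

/-- The fundamental `∞`-groupoid functor has a left adjoint, and the derived adjunction is an
equivalence. -/
theorem exists_adj (J : Glob Q) (hJ : IsCoherator ⟨Q, J⟩) {F : Q ⥤ CompactlyGenerated.{0, 0}}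
    (hF : IsDisc J F) {id : ∀ n, Ext.H ⟨Q, J⟩ (disc n) (disc 0)} (hid : IsIdent J id)
    (h : ∀ Y, Gl J yoneda ((F.op ⋙ coyoneda).flip.obj Y)) :
    ∃ (G : Gpd J ⥤ CompactlyGenerated.{0, 0}) (a : G ⊣ toGpd J (F.op ⋙ coyoneda).flip h),
      ∀ X : Gpd J, cofib (gfib J ⊓ gwe J id) X → ∀ (Y : CompactlyGenerated.{0, 0})
        (f : G.obj X ⟶ Y), wheT f ↔ gwe J id (a.homEquiv X Y f) := by
  have hC : (Ext.to ⟨Q, J⟩).GE.IsCoherator := S.isCoherator_GE hJ.to
  obtain ⟨K0⟩ := GlobExt.exists_cylFun_zero hC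
  have hF' := isDisc_to hF
  have hE : (EJ J).IsEquivalence := inferInstance
  let Δ : DiscFunctor (Ext.to ⟨Q, J⟩).GE := S.IsDisc.toDisc (A := Ext.to ⟨Q, J⟩) hF'
  let i : toGpd J (F.op ⋙ coyoneda).flip h ⋙ EJ J ≅ Δ.PiCG :=
    S.piIso (A := Ext.to ⟨Q, J⟩) hF' h
  let adj := adjCG Δ
  have hW : gwe J id = (K0.pathCtx hC).W.inverseImage (EJ J) := by
    ext X Y f
    exact S.we_iff_W (A := Ext.to ⟨Q, J⟩) hC K0 id (fun b n => hid n b) f
  let e : ∀ (X : Gpd J) (Y : CompactlyGenerated.{0, 0}),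
      (Δ.realCG.obj ((EJ J).obj X) ⟶ Y) ≃
        (X ⟶ (toGpd J (F.op ⋙ coyoneda).flip h).obj Y) := fun X Y =>
    (adj.homEquiv ((EJ J).obj X) Y).trans ((Iso.homToEquiv (i.symm.app Y)).trans
      (Functor.FullyFaithful.ofFullyFaithful (EJ J)).homEquiv.symm)
  have he : ∀ X Y f, (EJ J).map (e X Y f) = adj.homEquiv ((EJ J).obj X) Y f ≫ i.inv.app Y := by
    intro X Y f
    exact (Functor.FullyFaithful.ofFullyFaithful (EJ J)).map_preimage _
  refine ⟨EJ J ⋙ Δ.realCG, Adjunction.mkOfHomEquiv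
    { homEquiv := e
      homEquiv_naturality_left_symm := fun {X' X Y} f g => ?_
      homEquiv_naturality_right := fun {X Y Y'} f g => ?_ }, ?_⟩
  · apply (e X' Y).injective
    apply (EJ J).map_injective
    rw [Equiv.apply_symm_apply, he]
    have h1 := he X Y ((e X Y).symm g)
    rw [Equiv.apply_symm_apply] at h1
    have h2 : adj.homEquiv ((EJ J).obj X') Y (Δ.realCG.map ((EJ J).map f) ≫ (e X Y).symm g) =
        (EJ J).map f ≫ adj.homEquiv ((EJ J).obj X) Y ((e X Y).symm g) :=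
      adj.homEquiv_naturality_left _ _
    refine Eq.trans ?_ (congrArg (fun z => z ≫ i.inv.app Y) h2).symm
    rw [Category.assoc, ← h1, (EJ J).map_comp]
  · apply (EJ J).map_injective
    rw [he, (EJ J).map_comp, he, adj.homEquiv_naturality_right, Category.assoc, Category.assoc]
    exact congrArg (fun z => adj.homEquiv ((EJ J).obj X) Y f ≫ z) (i.inv.naturality g)
  · intro X hX Y f
    have h1 : gfib J ⊓ gwe J id = (TrivFib (K0.pathCtx hC).F).inverseImage (EJ J) := by
      rw [(semiModel J hJ id hid).2]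
      ext X Y f
      exact gtriv_iff J f
    rw [h1] at hX
    have h2 := isCof_of_cofib _ (cofib_map (EJ J) _ hX)
    have h3 : (wheT : MorphismProperty CompactlyGenerated.{0, 0}) = wheCG := whe_eq
    rw [h3, ← W_homEquiv_iff hC K0 Δ h2 Y f, hW, Adjunction.mkOfHomEquiv_homEquiv]
    change _ ↔ (K0.pathCtx hC).W ((EJ J).map (e X Y f))
    rw [he]
    exact ((K0.pathCtx hC).W.cancel_right_of_respectsIso _ _).symm

end

end Vale.Agent.P259.H304
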