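import Vale.Agent.P259.H304.QE
import Vale.Agent.P259.H403.Serre

/-!
The Quillen equivalence between compactly generated spaces and `∞`-groupoids.
-/

open CategoryTheory

namespace Vale.Agent.P259.H304

open Vale.Agent.P259.H615 StmtB Theta0

/-- **The fundamental `∞`-groupoid functor is a right Quillen equivalence.** -/
theorem quillen {Q : Type} [SmallCategory Q] (J : Glob Q) (hJ : IsCoherator ⟨Q, J⟩)
    {F : Q ⥤ CompactlyGenerated.{0, 0}} (hF : IsDisc J F)
    (id : ∀ n, Ext.H ⟨Q, J⟩ (disc n) (disc 0)) (hid : IsIdent J id)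
    (h : ∀ Y, Gl J yoneda ((F.op ⋙ coyoneda).flip.obj Y)) :
    IsQuillenEquiv (toGpd J (F.op ⋙ coyoneda).flip h) wheT serre (gwe J id) (gfib J) where
  fib := fun _ _ p hp => H403.gfib_map J hF h p hp
  triv := fun _ _ p hp => by
    refine ⟨H403.gfib_map J hF h p hp.1, ?_⟩
    have h1 := (zig_Pi J hJ hF hid h).1
    have h2 := hp.2
    rw [← h1] at h2
    exact h2
  adj := exists_adj J hJ hF hid h

end Vale.Agent.P259.H304
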