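import Vale.Agent.P259.H304.Fib

/-!
The left semi-model structure on the category of `∞`-groupoids.
-/

open CategoryTheory Limits

namespace Vale.Agent.P259.H304

open Vale.Agent.P259.H615 StmtB Theta0

section Transport

variable {K L : Type 1} [Category.{0} K] [Category.{0} L] (E : K ⥤ L) [E.IsEquivalence]

/-- Lifting problems are transported by an equivalence of categories. -/
lemma hasLift_map_iff {A B X Y : K} (i : A ⟶ B) (p : X ⟶ Y) :
    HasLiftingProperty (E.map i) (E.map p) ↔ HasLiftingProperty i p := by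
  constructor
  · intro h
    apply hasLift_of_exists
    intro u w hw
    have sq : CommSq (E.map u) (E.map i) (E.map p) (E.map w) := ⟨by
      rw [← E.map_comp, ← E.map_comp, hw]⟩
    obtain ⟨l, hl⟩ := E.map_surjective sq.lift
    refine ⟨l, E.map_injective ?_, E.map_injective ?_⟩
    · rw [E.map_comp, hl, sq.fac_left]
    · rw [E.map_comp, hl, sq.fac_right]
  · intro h
    apply hasLift_of_exists
    intro u w hw
    obtain ⟨u, rfl⟩ := E.map_surjective u
    obtain ⟨w, rfl⟩ := E.map_surjective w
    have sq : CommSq u i p w := ⟨E.map_injective (by rw [E.map_comp, E.map_comp, hw])⟩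
    refine ⟨E.map sq.lift, ?_, ?_⟩
    · rw [← E.map_comp, sq.fac_left]
    · rw [← E.map_comp, sq.fac_right]

/-- Every map of the target is isomorphic to the image of a map of the source. -/
lemma exists_arrow_iso {X Y : L} (f : X ⟶ Y) :
    ∃ (A B : K) (g : A ⟶ B), Nonempty (Arrow.mk (E.map g) ≅ Arrow.mk f) := by
  obtain ⟨g, hg⟩ := E.map_surjective ((E.objObjPreimageIso X).hom ≫ f ≫ (E.objObjPreimageIso Y).inv)
  refine ⟨_, _, g, ⟨Arrow.isoMk (E.objObjPreimageIso X) (E.objObjPreimageIso Y) ?_⟩⟩
  change (E.objObjPreimageIso X).hom ≫ f = E.map g ≫ (E.objObjPreimageIso Y).hom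
  rw [hg, Category.assoc, Category.assoc, Iso.inv_hom_id, Category.comp_id]

variable (P : MorphismProperty L) [P.RespectsIso]

lemma llp_inverseImage : (P.inverseImage E).llp = P.llp.inverseImage E := by
  ext A B i
  constructor
  · intro h X Y f hf
    obtain ⟨A', B', g, ⟨e⟩⟩ := exists_arrow_iso E f
    have h1 : P (E.map g) := (P.arrow_mk_iso_iff e).2 hf
    have h2 := h g h1
    have h3 := (hasLift_map_iff E i g).2 h2
    exact HasLiftingProperty.of_arrow_iso_right _ e
  · intro h X Y f hf
    exact (hasLift_map_iff E i f).1 (h _ hf)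

lemma rlp_inverseImage : (P.inverseImage E).rlp = P.rlp.inverseImage E := by
  ext A B i
  constructor
  · intro h X Y f hf
    obtain ⟨A', B', g, ⟨e⟩⟩ := exists_arrow_iso E f
    have h1 : P (E.map g) := (P.arrow_mk_iso_iff e).2 hf
    have h2 := h g h1
    have h3 := (hasLift_map_iff E g i).2 h2
    exact HasLiftingProperty.of_arrow_iso_left e _
  · intro h X Y f hf
    exact (hasLift_map_iff E f i).1 (h _ hf)

omit [P.RespectsIso] in
/-- Factorizations are transported by an equivalence of categories. -/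
lemma exists_fac {P R : MorphismProperty L} [P.RespectsIso] [R.RespectsIso] {X Y : K} (f : X ⟶ Y)
    (h : ∃ (Z : L) (i : E.obj X ⟶ Z) (p : Z ⟶ E.obj Y), P i ∧ R p ∧ i ≫ p = E.map f) :
    ∃ (Z : K) (i : X ⟶ Z) (p : Z ⟶ Y), P.inverseImage E i ∧ R.inverseImage E p ∧ i ≫ p = f := by
  obtain ⟨Z, i, p, hi, hp, fac⟩ := h
  obtain ⟨i', hi'⟩ := E.map_surjective (i ≫ (E.objObjPreimageIso Z).inv)
  obtain ⟨p', hp'⟩ := E.map_surjective ((E.objObjPreimageIso Z).hom ≫ p)
  refine ⟨_, i', p', ?_, ?_, E.map_injective ?_⟩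
  · change P (E.map i')
    rw [hi', P.cancel_right_of_respectsIso]
    exact hi
  · change R (E.map p')
    rw [hp', R.cancel_left_of_respectsIso]
    exact hp
  · rw [E.map_comp, hi', hp', Category.assoc, Iso.inv_hom_id_assoc, fac]

end Transport

section

variable {K : Type 1} [Category.{0} K]

lemma IsSemiModel.respectsIso {W F : MorphismProperty K} (h : IsSemiModel W F) :
    F.RespectsIso := by
  rw [h.fib]
  infer_instance

end

/-- Semi-model structures are transported along equivalences of categories. -/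
theorem IsSemiModel.inverseImage {K L : Type 1} [Category.{0} K] [Category.{0} L] (E : K ⥤ L)
    [E.IsEquivalence] {W F : MorphismProperty L} (h : IsSemiModel W F) :
    IsSemiModel (W.inverseImage E) (F.inverseImage E) := by
  have i1 := h.lim
  have i2 := h.colim
  have i3 := h.two
  have i4 := h.retract
  have i5 : F.RespectsIso := IsSemiModel.respectsIso h
  have i6 : (F ⊓ W).RespectsIso := by
    rw [h.cof]
    infer_instance
  have e0 : F.inverseImage E ⊓ W.inverseImage E = (F ⊓ W).inverseImage E := rfl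
  have e1 : (F.inverseImage E).llp = F.llp.inverseImage E := llp_inverseImage E F
  have e2 : ((F ⊓ W).inverseImage E).llp = (F ⊓ W).llp.inverseImage E := llp_inverseImage E _
  refine ⟨?_, ?_, ?_, inferInstance, ?_, ?_, ?_, ?_, ?_⟩
  · exact Adjunction.has_limits_of_equivalence E
  · exact Adjunction.has_colimits_of_equivalence E
  · infer_instance
  · rw [e1, rlp_inverseImage E F.llp, ← h.fib]
  · rw [e0, e2, rlp_inverseImage E (F ⊓ W).llp, ← h.cof]
  · intro A B i hA
    rw [e0, e1, e2]
    rw [e0] at hA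
    refine h.lift (E.map i) ?_
    intro X Y p hp f
    obtain ⟨X', Y', g, ⟨e⟩⟩ := exists_arrow_iso E p
    have h1 : (F ⊓ W) (E.map g) := ((F ⊓ W).arrow_mk_iso_iff e).2 hp
    obtain ⟨f', hf'⟩ := E.map_surjective (f ≫ e.inv.right)
    obtain ⟨l, hl⟩ := hA g h1 f'
    refine ⟨E.map l ≫ e.hom.left, ?_⟩
    have h2 : e.hom.left ≫ p = E.map g ≫ e.hom.right := e.hom.w
    have h3 : e.inv.right ≫ e.hom.right = 𝟙 Y := by
      rw [← Arrow.comp_right, e.inv_hom_id]
      rfl
    rw [Category.assoc, h2, ← Category.assoc, ← E.map_comp, hl, hf', Category.assoc, h3]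
    exact Category.comp_id f
  · intro X Y f
    rw [e1]
    exact exists_fac E f (h.fac (E.map f))
  · intro X Y f
    rw [e0, e2]
    exact exists_fac E f (h.fac' (E.map f))

section

variable {𝓜 : Type 1} [Category.{0} 𝓜] [HasLimits 𝓜] [HasColimits 𝓜]

/-- The semi-model structure of a path context. -/
theorem semiModel_pathCtx (K : PathCtx 𝓜) : IsSemiModel K.W (Fib K.F 0) := by
  have e : Fib K.F 0 ⊓ K.W = TrivFib K.F := by
    ext X Y f
    exact (K.trivFib_iff f).symm
  refine ⟨inferInstance, inferInstance, inferInstance, inferInstance, ?_, ?_, ?_, ?_, ?_⟩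
  · exact (MorphismProperty.rlp_llp_rlp _).symm
  · rw [e]
    exact (MorphismProperty.rlp_llp_rlp _).symm
  · intro A B i hA
    rw [e] at hA ⊢
    refine K.AN_iff i ?_
    intro X Y p hp
    apply hasLift_of_exists
    intro u w _
    obtain ⟨g, hg⟩ := hA p hp w
    exact ⟨g, initial.hom_ext _ _, hg⟩
  · intro X Y f
    exact K.fact_an f
  · intro X Y f
    rw [e]
    exact K.fact_cof f

end

/-- **The left semi-model structure on `∞`-groupoids.** -/
theorem semiModel {Q : Type} [SmallCategory Q] (J : Glob Q) (hJ : IsCoherator (Ext.mk Q J))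
    (id : ∀ n, Ext.H ⟨Q, J⟩ (disc n) (disc 0)) (hid : IsIdent J id) :
    IsSemiModel (gwe J id) (gfib J) ∧ gfib J ⊓ gwe J id = gtriv J := by
  have hC : (Ext.to ⟨Q, J⟩).GE.IsCoherator := S.isCoherator_GE hJ.to
  obtain ⟨K0⟩ := GlobExt.exists_cylFun_zero hC
  have h1 : gwe J id = (K0.pathCtx hC).W.inverseImage (EJ J) := by
    ext X Y f
    exact S.we_iff_W (A := Ext.to ⟨Q, J⟩) hC K0 id (fun b n => hid n b) f
  have h2 : gfib J = (Fib (K0.pathCtx hC).F 0).inverseImage (EJ J) := by
    ext X Y f
    exact gfib_iff J f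
  have h3 : gtriv J = (TrivFib (K0.pathCtx hC).F).inverseImage (EJ J) := by
    ext X Y f
    exact gtriv_iff J f
  constructor
  · rw [h1, h2]
    exact IsSemiModel.inverseImage (EJ J) (semiModel_pathCtx _)
  · rw [h1, h2, h3]
    ext X Y f
    exact ((K0.pathCtx hC).trivFib_iff _).symm

end Vale.Agent.P259.H304
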